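import Crest.Agent.X212.Ulc97.Geo

/-!
# Row 212, RAD-AX (helper71): weighted norms, slices as curves in `L²_k(Y)`, the flow on an end
-/

set_option autoImplicit false
set_option linter.unusedSectionVars false
noncomputable section
open scoped Manifold ContDiff Topology InnerProductSpace
open MeasureTheory Set Function Filter Real

namespace Crest.Agent.X212.Rax71
open An Cyf70 Ell97 Sob92 Rad94 Ulc97
open M (Mf pm)

variable {κ lam A : Type} [Fintype κ] [Fintype lam] [Fintype A] {X : Mf 4}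
  {N N' V W : Type} [NormedAddCommGroup N] [NormedSpace ℝ N] [NormedAddCommGroup N']
  [NormedSpace ℝ N'] [NormedAddCommGroup V] [InnerProductSpace ℝ V] [FiniteDimensional ℝ V]
  [NormedAddCommGroup W] [InnerProductSpace ℝ W] [FiniteDimensional ℝ W]
  {g : Gm X κ lam A} {s : A} {τ c : ℝ} {x : X.M} {ϖ : A → ℝ}

/-! ### weighted norms -/

section nrm
variable {f : X.M → N} {u v : X.M → N'}

theorem q0_nn (f : X.M → N) : 0 ≤ g.q0 f := integral_nonneg fun _ => by positivity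

theorem q0_le_Q (f : X.M → N) : g.q0 f ≤ g.Q ϖ f :=
  le_add_of_nonneg_right (Finset.sum_nonneg fun _ _ => integral_nonneg fun _ =>
    mul_nonneg (n2_nn _ _) (exp_pos _).le)

theorem Q_nn (f : X.M → N) : 0 ≤ g.Q ϖ f := (q0_nn f).trans (q0_le_Q f)

theorem q0_congr {f' : X.M → N} (h : ∀ x ∈ g.cor 0, f x = f' x) : g.q0 f = g.q0 f' :=
  setIntegral_congr_fun (isClosed_cor g 0).measurableSet fun x hx => by simp only [h x hx]

theorem int_cor (hg : g.OK) (hf : Continuous f) :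
    IntegrableOn (fun x => ‖f x‖ ^ 2) (g.cor 0) g.F.μ :=
  (hf.norm.pow 2).continuousOn.integrableOn_compact (hg.cpt 0)

theorem q0_add (hg : g.OK) (hu : Continuous u) (hv : Continuous v) :
    g.q0 (u + v) ≤ 2 * g.q0 u + 2 * g.q0 v := by
  rw [Gm.q0, Gm.q0, Gm.q0, ← integral_const_mul, ← integral_const_mul,
    ← integral_add ((int_cor hg hu).const_mul 2) ((int_cor hg hv).const_mul 2)]
  exact integral_mono (int_cor hg (hu.add hv))
    (((int_cor hg hu).const_mul 2).add ((int_cor hg hv).const_mul 2)) fun x =>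
      (pow_le_pow_left₀ (norm_nonneg _) (norm_add_le _ _) 2).trans
        (by nlinarith [sq_nonneg (‖u x‖ - ‖v x‖)])

theorem q0_eq (h : ∀ x, ‖f x‖ = c * ‖u x‖) : g.q0 f = c ^ 2 * g.q0 u := by
  simp only [Gm.q0, h, mul_pow, integral_const_mul]

theorem Q_mono (hg : g.OK) (hf : Continuous f) (hu : Continuous u) (h : ∀ x, ‖f x‖ ≤ c * ‖u x‖)
    (k : g.Fi ϖ u) : g.Fi ϖ f ∧ g.Q ϖ f ≤ c ^ 2 * g.Q ϖ u := by
  have e : ∀ x, ‖f x‖ ^ 2 ≤ c ^ 2 * ‖u x‖ ^ 2 := fun x =>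
    (pow_le_pow_left₀ (norm_nonneg _) (h x) 2).trans_eq (mul_pow _ _ _)
  have n : ∀ s, ∀ τ ∈ Ioi (0 : ℝ), g.n2 s f τ * exp (-(2 * ϖ s) * τ) ≤
      c ^ 2 * (g.n2 s u τ * exp (-(2 * ϖ s) * τ)) := fun s τ hτ => by
    rw [← mul_assoc, n2_eq, n2_eq, ← sl_mul]
    exact mul_le_mul_of_nonneg_right (sl_mono (hf.norm.pow 2) (by fun_prop)
      (neg_one_lt_zero.trans hτ) fun _ => e _) (exp_pos _).le
  have i : g.Fi ϖ f := fun s => ((k s).const_mul (c ^ 2)).mono'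
    ((((contOn_sl (hf.norm.pow 2)).mono (Ioi_subset_Ioi neg_one_lt_zero.le)).mul
      (by fun_prop)).aestronglyMeasurable measurableSet_Ioi)
    ((ae_restrict_mem measurableSet_Ioi).mono fun τ hτ => by
      rw [Real.norm_of_nonneg (mul_nonneg (n2_nn _ _) (exp_pos _).le)]; exact n s τ hτ)
  refine ⟨i, ?_⟩
  rw [Gm.Q, Gm.Q, mul_add, Finset.mul_sum]
  refine add_le_add ?_ (Finset.sum_le_sum fun s _ => ?_)
  · rw [Gm.q0, Gm.q0, ← integral_const_mul]
    exact integral_mono (int_cor hg hf) ((int_cor hg hu).const_mul _) e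
  · rw [← integral_const_mul]
    exact setIntegral_mono_on (i s) ((k s).const_mul _) measurableSet_Ioi (n s)

theorem col (hg : g.OK) (hf : Continuous f) : ∫ τ in (-1 / 2 : ℝ)..0, g.n2 s f τ ≤ g.q0 f := by
  rw [intervalIntegral.integral_of_le (by norm_num), ← integral_Icc_eq_integral_Ioc, n2_eq,
    ← int_Icc (by norm_num) (hf.norm.fun_pow 2)]
  exact setIntegral_mono_set (int_cor hg hf) (.of_forall fun _ => by positivity)
    (.of_forall fun x hx => mem_cor hg (s := s) (by linarith [hx.1]) hx.2)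

theorem abs_rd (hg : g.OK) {c : A → ℝ → ℝ} (h0 : ∀ s, ∀ t ≤ 0, c s t = 0) {G : ℝ} (hG : 0 ≤ G)
    (h : ∀ s t, |c s t| ≤ G) (x : X.M) : |g.rd c x| ≤ G := by
  by_cases k : ∃ s, -1 < g.ht s x
  · obtain ⟨s, k⟩ := k
    rw [rd_eq hg (fun s t ht => h0 s t (by linarith)) k]; exact h _ _
  · rwa [show g.rd c x = 0 from Finset.sum_eq_zero fun s _ =>
      h0 s _ (by linarith [not_lt.1 (not_exists.1 k s)]), abs_zero]

end nrm

theorem nrm0_le {Y : Mf 3} [CompactSpace Y.M] {ι : Type} [Fintype ι] (F : Pre Y.I Y.M ι)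
    {f h : Y.M → V} (hf : Continuous f) (hh : Continuous h) (c0 : 0 ≤ c)
    (e : ∀ y, ‖f y‖ ≤ c * ‖h y‖) : F.nrm 0 f ≤ c * F.nrm 0 h := by
  rw [Pre.nrm, Pre.nrm, ← sqrt_sq c0, ← sqrt_mul (sq_nonneg c)]
  refine sqrt_le_sqrt ?_
  simp only [Pre.ip, real_inner_self_eq_norm_sq, ← integral_const_mul]
  exact integral_mono ((hf.norm.pow 2).integrable_of_hasCompactSupport (.of_compactSpace _))
    ((continuous_const.mul (hh.norm.pow 2)).integrable_of_hasCompactSupport (.of_compactSpace _))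
    fun y => (pow_le_pow_left₀ (norm_nonneg _) (e y) 2).trans_eq (mul_pow _ _ _)

/-! ### slices -/

/-- smooth sections -/
def SS (P : X.M → V →L[ℝ] V) : Submodule ℝ (X.M → V) where
  carrier := {u | Sc P u}
  add_mem' hu hv := ⟨hu.1.add hv.1, fun x => by simp only [Pi.add_apply, map_add, hu.2 x, hv.2 x]⟩
  zero_mem' := ⟨contMDiff_const, fun x => by simp⟩
  smul_mem' r u hu := ⟨(contMDiff_const (I' := 𝓘(ℝ, ℝ)) (c := r)).smul hu.1, fun x => by
    simp only [Pi.smul_apply, map_smul, hu.2 x]⟩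

variable {P : X.M → V →L[ℝ] V} {p : (g.Y s).M → V →L[ℝ] V}
  (hp : ∀ τ y, -1 < τ → P (g.pt s τ y) = p y)

/-- the slice -/
def res (h : -1 < τ) : SS P →ₗ[ℝ] Sec (g.Y s).I p where
  toFun u := ⟨fun y => u.1 (g.pt s τ y), u.2.1.comp (sm_pt h), .of_compactSpace _,
    fun y => by rw [← hp τ y h]; exact u.2.2 _⟩
  map_add' _ _ := rfl
  map_smul' _ _ := rfl

/-- the slice in `L²_k` -/
def slk (k : ℕ) (τ : ℝ) : SS P →ₗ[ℝ] (g.D s).F.H k p :=
  if h : -1 < τ then (g.D s).F.toH k p ∘ₗ res hp h else 0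

theorem slk_eq (k : ℕ) (h : -1 < τ) (u : SS P) :
    slk hp k τ u = (g.D s).F.toH k p (res hp h u) := by rw [slk, dif_pos h]; rfl

theorem norm_slk (h : -1 < τ) (u : SS P) : ‖slk hp 0 τ u‖ ^ 2 = g.n2 s u.1 τ := by
  rw [slk_eq hp 0 h, ← real_inner_self_eq_norm_sq, Pre.inner_toH]
  simp only [Pre.ip, real_inner_self_eq_norm_sq]
  rfl

theorem der_slk (h : -1 < τ) (u : SS P) : ∃ w : Sec (g.Y s).I p,
    (∀ y, w.1 y = g.sg s • g.F.D none u.1 (g.pt s τ y)) ∧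
      ∀ k, HasDerivAt (fun t => slk hp k t u) ((g.D s).F.toH k p w) τ := by
  let φ : ContDiffBump τ := ⟨(τ + 1) / 4, (τ + 1) / 2, by linarith, by linarith⟩
  have h0 : ∀ t ≤ (τ - 1) / 2, φ t = 0 := fun t ht => φ.zero_of_le_dist (by
    rw [Real.dist_eq, abs_sub_comm]; exact le_trans (by show (τ + 1) / 2 ≤ _; linarith) (le_abs_self _))
  let v : Sec (IC (g.Y s).I) (pc p) := ⟨fun z => φ z.2 • u.1 (Ψ g s z), fun z => by
      rcases lt_or_ge (-1) z.2 with k | k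
      · exact (sm_snd φ.contDiff z).smul ((u.2.1 _).comp z (smAt_Ψ k))
      · exact contMDiffAt_const.congr_of_eventuallyEq ((continuous_snd.continuousAt.eventually
          (gt_mem_nhds (show z.2 < (τ - 1) / 2 by linarith))).mono fun w hw => by
            simp only [h0 _ hw.le, zero_smul]; rfl),
    HasCompactSupport.intro (isCompact_univ.prod φ.hasCompactSupport.isCompact) fun z hz => by
      rw [image_eq_zero_of_notMem_tsupport fun h => hz ⟨trivial, h⟩, zero_smul], fun z => by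
      rcases lt_or_ge (-1) z.2 with k | k
      · rw [map_smul, show pc p z = _ from (hp _ _ k).symm]; exact congrArg _ (u.2.2 _)
      · simp only [h0 z.2 (by linarith), zero_smul, map_zero]⟩
  have e : ∀ᶠ t in 𝓝 τ, -1 < t ∧ φ t = 1 := (lt_mem_nhds h).and φ.eventuallyEq_one
  refine ⟨slc (dt (g.D s).F.toPre v) τ, fun y => (hasDerivAt_slice _ v.2.1 y τ).unique
    ((hasDerivAt_pt u.2.1 h y).congr_of_eventuallyEq (e.mono fun t ht => ?_)), fun k =>
    (hasDerivAt_slc v τ).congr_of_eventuallyEq (e.mono fun t ht => ?_)⟩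
  · show φ t • _ = _
    rw [ht.2, one_smul]; rfl
  · show slk hp k t u = _
    rw [slk_eq hp k ht.1]
    exact congrArg _ (Subtype.ext (funext fun y =>
      show u.1 (g.pt s t y) = φ t • _ by rw [ht.2, one_smul]; rfl))

/-! ### the flow -/

variable {L : Lop g V W} (hL : L.OK) {hp : ∀ τ y, -1 < τ → P (g.pt s τ y) = (L.E s).p y}
include hL

theorem norm_nu (y : (g.Y s).M) (w : W) : ‖nu (L.E s) y w‖ ≤ ‖w‖ := by
  have k := (hL.cy s).good.choose_spec.q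
  have h1 := (hL.cy s).inner_nu_nu y w w
  have h2 : ⟪(L.E s).q y w, (L.E s).q y w⟫_ℝ = ⟪(L.E s).q y w, w⟫_ℝ :=
    (k.symm (y, 0) _ _).symm.trans (congrArg (⟪·, w⟫_ℝ) (k.idem (y, 0) w))
  rw [real_inner_self_eq_norm_sq] at h1 h2
  have h3 := real_inner_le_norm ((L.E s).q y w) w
  exact (sq_le_sq₀ (norm_nonneg _) (norm_nonneg _)).1
    (by nlinarith [sq_nonneg (‖(L.E s).q y w‖ - ‖w‖)])

theorem flw {l γ : ℝ} (hγ : L.Gap s l γ) (u : SS P) {c z : ℝ → ℝ} (z0 : ∀ τ, 0 ≤ z τ)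
    (hz : ∀ τ > -1, ∀ y, ‖L.A.app g.F u.1 (g.pt s τ y) - c τ • (L.E s).σ none y (u.1 (g.pt s τ y)) -
      (L.A.B (g.pt s τ y) - (L.E s).B y) (u.1 (g.pt s τ y))‖ ≤ z τ * ‖u.1 (g.pt s τ y)‖) :
    ∃ ψ ρ : ℝ → (g.D s).F.H 0 (L.E s).p, (∀ τ > -1, HasDerivAt (fun τ => slk hp 0 τ u)
      (-ψ τ + ρ τ + (g.sg s * (c τ - l)) • slk hp 0 τ u) τ) ∧
    (∀ τ > -1, HasDerivAt (fun τ => ⟪ψ τ, slk hp 0 τ u⟫_ℝ)
      (2 * ⟪ψ τ, -ψ τ + ρ τ + (g.sg s * (c τ - l)) • slk hp 0 τ u⟫_ℝ) τ) ∧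
    (∀ τ > -1, ‖ρ τ‖ ≤ z τ * ‖slk hp 0 τ u‖) ∧ ∀ τ > -1, ∀ ν δ : ℝ, 0 ≤ δ → δ ≤ |ν| →
      δ ≤ γ - |ν| → δ * ‖slk hp 0 τ u‖ ≤ ‖ψ τ - ν • slk hp 0 τ u‖ := by
  have cy := hL.cy s
  obtain ⟨C, G⟩ := cy.good_sop
  let T := LH (g.D s).F (L.E s) 0
  let ψ := fun τ => g.sg s • (T (slk hp 1 τ u) - l • slk hp 0 τ u)
  have eψ : ∀ τ (h : -1 < τ), ∃ a : Sec (g.Y s).I (L.E s).p, a.1 = (sop (L.E s)).app (g.D s).F
      (res hp h u).1 ∧ ψ τ = (g.D s).F.toH 0 _ (g.sg s • (a - l • res hp h u)) := fun τ h =>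
    ⟨LS G (res hp h u), rfl, by
      simp only [ψ, slk_eq hp _ h, map_smul, map_sub]
      exact congrArg (fun a => g.sg s • (a - _)) (H_toH G 0 _)⟩
  have cS : ∀ a : Sec (g.Y s).I (L.E s).p, Continuous a.1 := fun a => a.2.1.continuous
  have e : ∀ τ, -ψ τ + (deriv (fun τ => slk hp 0 τ u) τ + ψ τ - (g.sg s * (c τ - l)) • slk hp 0 τ u) +
      (g.sg s * (c τ - l)) • slk hp 0 τ u = deriv (fun τ => slk hp 0 τ u) τ := fun τ => by abel
  refine ⟨ψ, fun τ => deriv (fun τ => slk hp 0 τ u) τ + ψ τ - (g.sg s * (c τ - l)) • slk hp 0 τ u,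
    fun τ h => ?_, fun τ h => ?_, fun τ h => ?_, fun τ h ν δ h0 h1 h2 => ?_⟩
  · obtain ⟨w, -, k⟩ := der_slk hp h u
    rw [e]; exact (k 0).differentiableAt.hasDerivAt
  · obtain ⟨w, -, k⟩ := der_slk hp h u
    have := cy.symH ((g.D s).F.toH 1 _ w) (slk hp 1 τ u)
    rw [incl_toH zero_le_one, slk_eq hp 1 h, incl_toH zero_le_one, ← slk_eq hp 0 h,
      ← slk_eq hp 1 h] at this
    have d : HasDerivAt ψ (g.sg s • (T ((g.D s).F.toH 1 _ w) - l • (g.D s).F.toH 0 _ w)) τ :=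
      ((T.hasFDerivAt.comp_hasDerivAt τ (k 1)).sub ((k 0).const_smul l)).const_smul (g.sg s)
    rw [e, (k 0).deriv]
    refine (d.inner ℝ (k 0)).congr_deriv ?_
    rw [two_mul, add_right_inj, real_inner_smul_left, real_inner_smul_left, inner_sub_left,
      inner_sub_left, real_inner_smul_left, real_inner_smul_left, real_inner_comm _ (T _),
      real_inner_comm (slk hp 0 τ u)]
    exact congrArg (fun a => g.sg s * (a - _)) ((real_inner_comm _ _).trans (this.trans (real_inner_comm _ _)))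
  · obtain ⟨w, hw, k⟩ := der_slk hp h u
    obtain ⟨a, ha, e'⟩ := eψ τ h
    beta_reduce
    rw [(k 0).deriv, e', slk_eq hp 0 h, ← map_smul ((g.D s).F.toH 0 _), ← map_add, ← map_sub,
      Pre.norm_toH, Pre.norm_toH]
    refine nrm0_le _ (cS _) (cS _) (z0 τ) fun y => ?_
    refine le_trans (le_of_eq ?_) ((norm_nu hL y _).trans (hz τ h y))
    have h1 : (L.E s).p y (g.F.D none u.1 (g.pt s τ y)) = g.F.D none u.1 (g.pt s τ y) := by
      have := congrArg (g.sg s • ·) (w.2.2.2 y)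
      simpa only [hw, map_smul, smul_smul, sg_sq, one_smul] using this
    have h2 : (L.E s).p y (u.1 (g.pt s τ y)) = u.1 (g.pt s τ y) := (res hp h u).2.2.2 y
    rw [← one_mul ‖nu _ _ _‖, ← abs_sg g s, ← Real.norm_eq_abs, ← norm_smul]
    congr 1
    show w.1 y + g.sg s • (a.1 y - l • u.1 (g.pt s τ y)) -
      (g.sg s * (c τ - l)) • u.1 (g.pt s τ y) = _
    rw [show a.1 y = ∑ a, nu _ y ((L.E s).σ (some a) y ((g.D s).F.D a (fun y => u.1 (g.pt s τ y)) y)) +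
      nu _ y ((L.E s).B y (u.1 (g.pt s τ y))) from congrFun ha y]
    simp only [hw, Op.app, Pre.op, Fintype.sum_option, hL.σ s τ y _ h, D_some_pt u.2.1 h, map_add,
      map_sub, map_smul, map_sum, cy.nu_σ, h1, h2, sub_apply]
    module
  · obtain ⟨a, ha, e'⟩ := eψ τ h
    have := hγ (res hp h u) (l + g.sg s * ν) δ h0 (by simpa [abs_mul, abs_sg] using h1)
      (by simpa [abs_mul, abs_sg] using h2)
    rw [e', slk_eq hp 0 h, ← map_smul ((g.D s).F.toH 0 _), ← map_sub, show g.sg s • (a -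
      l • res hp h u) - ν • res hp h u = g.sg s • (a - (l + g.sg s * ν) • res hp h u) by
        rw [add_smul, mul_smul, smul_sub, smul_sub, smul_add, smul_smul _ (g.sg s), sg_sq, one_smul,
          sub_sub],
      map_smul ((g.D s).F.toH 0 _), norm_smul, Real.norm_eq_abs, abs_sg, one_mul, Pre.norm_toH,
      Pre.norm_toH]
    rwa [← ha] at this

omit hL in
theorem exists_sup {ι : Type} {f : ℝ → ι → ℝ} {C : ℝ} (h0 : ∀ τ i, 0 ≤ f τ i) (b : ∀ τ i, f τ i ≤ C)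
    (c : 0 ≤ C) (h : ∀ δ > 0, ∀ᶠ τ in atTop, ∀ i, f τ i ≤ δ) : ∃ z : ℝ → ℝ, (∀ τ, 0 ≤ z τ ∧ z τ ≤ C) ∧
      Tendsto z atTop (𝓝 0) ∧ ∀ τ i, f τ i ≤ z τ := by
  have n : ∀ τ, 0 ≤ ⨆ i, f τ i := fun τ => Real.iSup_nonneg (h0 τ)
  refine ⟨fun τ => ⨆ i, f τ i, fun τ => ⟨n τ, Real.iSup_le (b τ) c⟩,
    Metric.tendsto_nhds.2 fun δ δ0 => (h _ (half_pos δ0)).mono fun τ k => ?_,
    fun τ i => le_ciSup ⟨C, forall_mem_range.2 (b τ)⟩ i⟩
  rw [Real.dist_0_eq_abs, abs_of_nonneg (n τ)]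
  exact (Real.iSup_le k (half_pos δ0).le).trans_lt (half_lt_self δ0)

/-- the distance of the term of order zero from its limit -/
theorem exists_z : ∃ (Λ : ℝ) (z : ℝ → ℝ), (∀ τ, 0 ≤ z τ ∧ z τ ≤ Λ) ∧ Tendsto z atTop (𝓝 0) ∧
    ∀ τ (p : Σ s, (g.Y s).M), ‖L.A.B (g.pt p.1 τ p.2) - (L.E p.1).B p.2‖ ≤ z τ := by
  obtain ⟨C, G⟩ := hL.good
  choose C' G' using fun s => (hL.cy s).good
  exact ⟨|C 0| + ∑ s, |C' s 0|, exists_sup (fun _ _ => norm_nonneg _) (fun τ p =>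
    (norm_sub_le _ _).trans (add_le_add ((G.B.2 0 [] le_rfl _).trans (le_abs_self _))
      ((((G' p.1).B.2 0 [] le_rfl (p.2, 0)).trans (le_abs_self _)).trans (Finset.single_le_sum
        (f := fun s => |C' s 0|) (fun _ _ => abs_nonneg _) (Finset.mem_univ _))))) (by positivity)
    fun δ δ0 => (eventually_all.2 fun s => eventually_atTop.2 (hL.B s δ δ0)).mono
      fun τ h p => h p.1 p.2⟩

end Crest.Agent.X212.Rax71
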