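import Crest.Agent.X212.Rax71.Fl
import Crest.Agent.X212.Rad94.Leaf
import Crest.Agent.X212.Win39.Rig
import Crest.Agent.X212.Pb50.Act

/-!
# Row 212, RAD-AX (helper71): the radial Dirac problem is an instance of `Rp`
-/

set_option autoImplicit false
set_option linter.unusedSectionVars false
noncomputable section
open scoped Manifold ContDiff Topology InnerProductSpace
open MeasureTheory Set Function Filter Real

namespace Crest.Agent.X212.Rax71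
open An Sob92 Rad94 Ulc97 Sw Sw.En3
open Cyf70 hiding Dz
open M (Mf pm)
open Eqv71 (csL cs_mul)
open Pb50 (cs_comm Jpp Jρ JW)

variable {κ lam ν : Type} [Fintype κ] [Fintype lam] [Fintype ν] [DecidableEq ν]
  {X : Mf 4} {nc : ℕ}

section bg
variable {b : Bg X.I X.M κ lam ν nc} {g : Gm X κ lam Bool} {a : Fo X κ} {c : Bool → ℝ → ℝ}
  {u v : X.M → Eu ν} {j : Fin nc} {η : R4 → Eu ν}

theorem Dz_eq (x : X.M) : Dz b g a c u x = ∑ i, b.m.ρ i x (b.F.D i u x + b.W ⟨a, 0⟩ i x (u x)) +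
    b.ms x (u x) - g.rd c x • b.m.ρ none x (u x) := rfl

theorem Dz_add (hu : Sm X.I u) (hv : Sm X.I v) :
    Dz b g a c (u + v) = Dz b g a c u + Dz b g a c v := funext fun x => by
  simp only [Dz_eq, b.F.D_add hu hv, Pi.add_apply, map_add, Finset.sum_add_distrib, smul_add]
  abel

theorem Dz_mul {f : X.M → ℝ} (hf : Sm X.I f) (hu : Sm X.I u) (x : X.M) :
    Dz b g a c (fun x => f x • u x) x =
      f x • Dz b g a c u x + ∑ i, b.F.D i f x • b.m.ρ i x (u x) := by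
  simp only [Dz_eq, Pre.D_def, dv_smul (hf.mdifferentiableAt (by simp))
    (hu.mdifferentiableAt (by simp)), map_add, map_smul, Finset.sum_add_distrib, smul_add, smul_sub,
    Finset.smul_sum, smul_comm (f x) (g.rd c x)]
  abel

theorem Dz_cs (hb : b.OK) (hu : Sm X.I u) (ζ : ℂ) (x : X.M) :
    Dz b g a c (fun x => cs b.m.J ζ (u x)) x = csL b.m.J ζ (Dz b g a c u x) := by
  have : ∀ i, b.F.D i (fun x => cs b.m.J ζ (u x)) x = cs b.m.J ζ (b.F.D i u x) := fun i =>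
    dv_clm (csL b.m.J ζ) (hu.mdifferentiableAt (by simp))
  simp only [Dz_eq, this, map_add, map_sub, map_sum, map_smul, Eqv71.csL_apply,
    cs_comm (Jρ hb _ x), cs_comm (JW hb _ _ x), cs_comm (hb.msJ x)]

theorem cont_Dz (hb : b.OK) (ha : S1 b a) (hc : Rd c) (hu : Sm X.I u) :
    Continuous (Dz b g a c u) := by
  have r : ∀ i, Sm X.I (b.m.ρ i) := fun i x => hb.cc.sρ i x
  have w : ∀ i, Sm X.I (b.W ⟨a, 0⟩ i) := fun i x =>
    (hb.cc.sm i x).add ((ha.1 i x).smul (Pb50.sa_jp hb x))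
  exact (((contMDiff_finsetSum fun i _ => (r i).clm_apply ((b.F.sm_D hu i).add
    ((w i).clm_apply hu))).add (hb.cms.choose_spec.1.clm_apply hu)).sub
      ((sm_rd hc).smul ((r none).clm_apply hu))).continuous

theorem sm_n2 (hu : Sm X.I u) (s : Bool) : ContDiffOn ℝ ∞ (g.n2 s u) (Ioi (-1)) :=
  sm_sl ((contDiff_norm_sq ℝ).comp_contMDiff hu)

theorem rd_cm {β : Bool → ℝ → ℝ} (hβ : ∀ s, ContDiff ℝ ∞ (β s)) (hu : Sm X.I u) :
    Rd (cm g β u) := fun s => by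
  have h0 : ∀ τ ≤ 0, cm g β u s τ = 0 := fun τ h =>
    mul_eq_zero_of_left (smoothTransition.zero_of_nonpos h) _
  refine ⟨contDiff_iff_contDiffAt.2 fun τ => ?_, h0⟩
  rcases lt_or_ge (-1) τ with h | h
  · exact smoothTransition.contDiffAt.mul
      ((hβ s).contDiffAt.comp τ ((sm_n2 hu s).contDiffAt (Ioi_mem_nhds h)))
  · exact contDiffAt_const.congr_of_eventuallyEq
      ((gt_mem_nhds (h.trans_lt neg_one_lt_zero)).mono fun t ht => h0 t ht.le)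

theorem rd_c0 (l : Bool → ℝ) : Rd fun s τ => χ τ * l s := fun _ =>
  ⟨smoothTransition.contDiff.mul contDiff_const,
    fun _ h => mul_eq_zero_of_left (smoothTransition.zero_of_nonpos h) _⟩

theorem lη_zero (c : Cfg X.M κ ν) : b.lη j 0 c = 0 := by
  simp [Bg.lη, hm, ← Complex.ofReal_def]

theorem rb_mono {r r' : ℝ} (h : RB b g j η r) (k : |r| ≤ r') : RB b g j η r' := by
  have : r ^ 2 ≤ r' ^ 2 := sq_le_sq' (abs_le.1 k).1 (abs_le.1 k).2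
  exact ⟨fun a u h1 h2 => (h.bd a u h1 h2).trans (by gcongr; exact q0_nn _),
    fun a a' u δ h1 h2 h3 h4 => (h.sup a a' u δ h1 h2 h3 h4).trans (by gcongr; exact q0_nn _),
    fun a a' u δ h1 h2 h3 h4 => (h.l2 a a' u δ h1 h2 h3 h4).trans (by gcongr; exact q0_nn _)⟩

theorem pi_sq {f : Fin nc → ℂ} {r : ℝ} (h0 : 0 ≤ r) (h : ∀ j, ‖f j‖ ^ 2 ≤ r) : ‖f‖ ^ 2 ≤ r :=
  (le_sqrt (norm_nonneg _) h0).1
    ((pi_norm_le_iff_of_nonneg (sqrt_nonneg _)).2 fun j => le_sqrt_of_sq_le (h j))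

/-- multiplication by a function -/
def mulS {P : X.M → En ν} {f : X.M → ℝ} (hf : Sm X.I f) : SS P →ₗ[ℝ] SS P where
  toFun u := ⟨fun x => f x • u.1 x, hf.smul u.2.1, fun x => by rw [map_smul, u.2.2]⟩
  map_add' _ _ := Subtype.ext (funext fun _ => smul_add _ _ _)
  map_smul' r u := Subtype.ext (funext fun x => smul_comm (f x) r (u.1 x))

theorem sm_exp (hc : Rd c) : Sm X.I fun x => exp (g.rd c x) := contDiff_exp.comp_contMDiff (sm_rd hc)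

end bg

variable {e : Bool → En3 κ lam ν} {Z : Pz X nc e} {z : Two Z} {a₀ : Fo X κ} {l : Bool → ℝ} {ε γ : ℝ}
  {L : Lop z.gm (Eu ν) (Eu ν)} {pr : (X.M → Eu ν) → ℂ}

variable (z a₀ l ε γ L pr) in
/-- the hypotheses -/
structure Hy : Prop where
  ok : Z.bg.OK
  alg : Alg Z.bg z.gm
  dir : z.Dir a₀ L
  ul : z.gm.UlC
  ct : ∀ j y s, z.gm.ht s ((Z.bg.ct j).Ξ y) < 0
  a1 : A1 Z.bg a₀
  ε0 : 0 < ε
  γ0 : 8 * ε ≤ γ
  gap : ∀ s, L.Gap s (l s) γ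
  rb : ∀ j η, Z.bg.Tst (Z.bg.ct j).Ξ η → ∃ r, RB Z.bg z.gm j η r ∧ ∀ a, S1 Z.bg a →
    z.gm.Row (fun u => Z.bg.lη j η ⟨a, u⟩) (r ^ 2) ∧ ∀ (ζ : ℂ) u, Sm X.I u →
      Z.bg.lη j η ⟨a, fun x => cs Z.bg.m.J ζ (u x)⟩ = ζ * Z.bg.lη j η ⟨a, u⟩
  ker : Ker Z.bg z.gm a₀ l ε
  prr : ∀ ζ u, Sm X.I u → pr (fun x => cs Z.bg.m.J ζ (u x)) = ζ * pr u
  est : ∃ C, z.gm.Row pr C ∧ ∀ u, Sc Z.bg.pp u → z.gm.Fi (fun _ => ε) u →
    z.gm.Fi (fun _ => ε) (Dz Z.bg z.gm a₀ (fun s τ => χ τ * l s) u) →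
      z.gm.Q (fun _ => ε) u ≤ C * (z.gm.Q (fun _ => ε) (Dz Z.bg z.gm a₀ (fun s τ => χ τ * l s) u) +
        ‖rw Z.bg a₀ 0 u‖ ^ 2 + ‖pr u‖ ^ 2)

namespace Hy
variable (h : Hy z a₀ l ε γ L pr)
include h

theorem gm : z.gm.OK := h.dir.ok.gm

theorem hp (s : Bool) (τ : ℝ) (y : (z.gm.Y s).M) (k : -1 < τ) :
    Z.bg.pp (z.gm.pt s τ y) = (L.E s).p y := h.dir.p ▸ h.dir.ok.p s τ y k

open Classical in
/-- the instance -/
@[reducible] def rp : Rp where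
  A := {α : Fo X κ × (Fin nc → R4 → Eu ν) // S1 Z.bg α.1 ∧ ∀ j, Z.bg.Tst (Z.bg.ct j).Ξ (α.2 j)}
  S := SS Z.bg.pp
  V := (X.M → Eu ν) × (Fin nc → ℂ)
  H s := (z.gm.D s).F.H 0 (L.E s).p
  o := ⟨(a₀, 0), h.a1.1, fun _ => ⟨contDiff_const, .zero, fun _ => map_zero _⟩⟩
  sm α δ := Nr Z.bg z.gm a₀ δ α.1.1 α.1.2
  sl s := slk (h.hp s) 0
  q0 u := z.gm.q0 u.1
  F' f := Continuous f.1 ∧ z.gm.Fi (fun _ => ε) f.1
  Q' f := z.gm.Q (fun _ => ε) f.1 + ‖f.2‖ ^ 2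
  D α c :=
    { toFun u := (Dz Z.bg z.gm α.1.1 c u.1, rw Z.bg α.1.1 α.1.2 u.1)
      map_add' u v := Prod.ext (Dz_add u.2.1 v.2.1) (funext fun j => by
        have k := fun η t => ((h.rb j η t).choose_spec.2 _ α.2.1).1.add _ _ u.2.1 v.2.1
        exact (congrArg₂ (· - ·) (k _ (h.ok.ct j).η) (k _ (α.2.2 j))).trans (add_sub_add_comm ..))
      map_smul' r u := Prod.ext (funext fun x => (Dz_mul contMDiff_const u.2.1 x).trans (by
          simp [Pre.D_def])) (funext fun j => by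
        have k := fun η t => ((h.rb j η t).choose_spec.2 _ α.2.1).1.smul r _ u.2.1
        exact (congrArg₂ (· - ·) (k _ (h.ok.ct j).η) (k _ (α.2.2 j))).trans (smul_sub ..).symm) }
  E c := if k : Rd c then mulS (sm_exp (g := z.gm) k) else 0
  E' c :=
    { toFun f := (fun x => exp (z.gm.rd c x) • f.1 x, f.2)
      map_add' _ _ := Prod.ext (funext fun _ => smul_add _ _ _) rfl
      map_smul' r f := Prod.ext (funext fun x => smul_comm (exp (z.gm.rd c x)) r (f.1 x)) rfl }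
  rot ζ :=
    { toFun u := ⟨fun x => cs Z.bg.m.J ζ (u.1 x), (csL Z.bg.m.J ζ).contMDiff.comp u.2.1,
        fun x => by rw [cs_comm (Jpp h.ok x), u.2.2]⟩
      map_add' _ _ := Subtype.ext (funext fun _ => map_add (csL Z.bg.m.J ζ) _ _)
      map_smul' _ _ := Subtype.ext (funext fun _ => map_smul (csL Z.bg.m.J ζ) _ _) }
  pr :=
    { toFun u := pr u.1
      map_add' u v := h.est.choose_spec.1.add _ _ u.2.1 v.2.1
      map_smul' r u := h.est.choose_spec.1.smul r _ u.2.1 }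
  l := l
  ε := ε
  γ := γ

theorem n_eq {s : Bool} {τ : ℝ} (k : -1 < τ) (u : h.rp.S) : h.rp.n s u τ = z.gm.n2 s u.1 τ :=
  norm_slk (h.hp s) k u

theorem int_iff (s : Bool) (u : h.rp.S) (w : ℝ → ℝ) :
    IntegrableOn (fun τ => h.rp.n s u τ * w τ) (Ioi 0) ↔
      IntegrableOn (fun τ => z.gm.n2 s u.1 τ * w τ) (Ioi 0) :=
  integrableOn_congr_fun (fun τ k => by simp only [h.n_eq (neg_one_lt_zero.trans k)])
    measurableSet_Ioi

theorem fi_iff (u : h.rp.S) : h.rp.Fi u ↔ z.gm.Fi (fun _ => ε) u.1 :=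
  forall_congr' fun s => h.int_iff s u _

theorem Q_eq (u : h.rp.S) : h.rp.Q u = z.gm.Q (fun _ => ε) u.1 :=
  congrArg (_ + ·) (Finset.sum_congr rfl fun s _ => setIntegral_congr_fun measurableSet_Ioi
    fun τ k => by simp only [h.n_eq (neg_one_lt_zero.trans k)])

theorem E_val {c : Bool → ℝ → ℝ} (k : Rd c) (u : h.rp.S) :
    (h.rp.E c u).1 = fun x => exp (z.gm.rd c x) • u.1 x := by
  dsimp only [rp]; rw [dif_pos k]; rfl

theorem E_cor {c : Bool → ℝ → ℝ} (k : Rd c) (u : h.rp.S) {x : X.M} (hx : x ∈ z.gm.cor 0) :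
    (h.rp.E c u).1 x = u.1 x := by rw [h.E_val k]; simp [rd_cor k hx]

theorem ncs (ζ : ℂ) (v : Eu ν) : ‖cs Z.bg.m.J ζ v‖ = ‖ζ‖ * ‖v‖ :=
  Win39.norm_cs h.ok.m.Jsq h.ok.m.Jsk ζ v

theorem pert : ∃ C, ∀ α δ c (u : h.rp.S), δ ∈ Icc (0 : ℝ) 1 → h.rp.sm α δ → Rd c →
    (∀ s τ, |c s τ - h.rp.c0 s τ| ≤ δ) → h.rp.Fi u →
    h.rp.F' (h.rp.D α c u - h.rp.D h.rp.o h.rp.c0 u) ∧
      h.rp.Q' (h.rp.D α c u - h.rp.D h.rp.o h.rp.c0 u) ≤ C * δ ^ 2 * h.rp.Q u := by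
  obtain ⟨C₁, h1⟩ := h.alg.dz
  obtain ⟨C₂, h2⟩ := h.ok.cρ none
  choose r hr using fun j => h.rb j _ (h.ok.ct j).η
  refine ⟨(|C₁| + C₂ 0) ^ 2 + (2 * (∑ j, |r j|) ^ 2 + 2), fun α δ c u d k hc hd hu => ?_⟩
  have c0 := rd_c0 l
  have k1 := cont_Dz (g := z.gm) h.ok α.2.1 hc u.2.1
  have k2 := cont_Dz (g := z.gm) h.ok h.a1.1 c0 u.2.1
  have k3 := Q_mono (c := (|C₁| + C₂ 0) * δ) h.gm (k1.sub k2) u.2.1.continuous (fun x => by
    have e : Dz Z.bg z.gm α.1.1 c u.1 x - Dz Z.bg z.gm a₀ h.rp.c0 u.1 x =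
        Dz Z.bg z.gm α.1.1 c u.1 x - Dz Z.bg z.gm a₀ c u.1 x -
          z.gm.rd (c - h.rp.c0) x • Z.bg.m.ρ none x (u.1 x) := by
      simp only [Dz, Gm.rd, Pi.sub_apply, Finset.sum_sub_distrib, sub_smul]; abel
    have a1 := (h1 _ _ c _ x α.2.1 h.a1.1 u.2).trans (mul_le_mul (le_abs_self _)
      (mul_le_mul_of_nonneg_right (k.sup x) (norm_nonneg _)) (by positivity) (abs_nonneg _))
    have a2 := mul_le_mul (abs_rd (c := c - h.rp.c0) h.gm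
      (fun s t ht => by rw [Pi.sub_apply, Pi.sub_apply, (hc s).2 t ht, zero_sub]; exact neg_eq_zero.2 ((c0 s).2 t ht))
      d.1 hd x)
      ((Z.bg.m.ρ none x).le_of_opNorm_le (h2.2 0 [] le_rfl x) (u.1 x)) (norm_nonneg _) d.1
    refine (congrArg norm e).trans_le ((norm_sub_le _ _).trans ?_)
    rw [norm_smul, Real.norm_eq_abs]
    linarith) ((h.fi_iff u).1 hu)
  have q0 := q0_nn (g := z.gm) u.1
  have q1 := q0_le_Q (g := z.gm) (ϖ := fun _ => ε) u.1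
  have k4 : ‖rw Z.bg α.1.1 α.1.2 u.1 - rw Z.bg a₀ 0 u.1‖ ^ 2 ≤
      (2 * (∑ j, |r j|) ^ 2 + 2) * δ ^ 2 * z.gm.q0 u.1 := pi_sq (by positivity) fun j => by
    have b1 := (rb_mono (hr j).1 (Finset.single_le_sum (f := fun j => |r j|)
      (fun _ _ => abs_nonneg _) (Finset.mem_univ j))).sup _ _ _ δ α.2.1 h.a1.1 u.2.1 k.sup
    have b2 := (k.η j).2.bd _ _ α.2.1 u.2.1
    simp only [Pi.sub_apply, rw, Pi.zero_apply, lη_zero, sub_zero]
    rw [sub_right_comm]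
    refine (pow_le_pow_left₀ (norm_nonneg _) (norm_sub_le _ _) 2).trans ?_
    nlinarith [sq_nonneg (‖Z.bg.l j ⟨α.1.1, u.1⟩ - Z.bg.l j ⟨a₀, u.1⟩‖ -
      ‖Z.bg.lη j (α.1.2 j) ⟨α.1.1, u.1⟩‖)]
  refine ⟨⟨k1.sub k2, k3.1⟩, (add_le_add k3.2 (k4.trans
    (mul_le_mul_of_nonneg_left q1 (by positivity)))).trans_eq ?_⟩
  rw [h.Q_eq]; ring

theorem fl : ∃ (z : ℝ → ℝ) (Λ C : ℝ), (∀ τ, z τ ≤ Λ) ∧ Tendsto z atTop (𝓝 0) ∧ 0 ≤ C ∧
    ∀ α δ c u s, 0 ≤ δ → h.rp.sm α δ → Rd c → h.rp.D α c u = 0 →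
      ∃ ψ ρ, h.rp.Flw s u (c s) (fun τ => z τ + C * δ) ψ ρ := by
  obtain ⟨Λ, ζ, h1, h2, h3⟩ := exists_z h.dir.ok
  obtain ⟨B, ⟨C, hC⟩, hB⟩ := h.alg.bil
  refine ⟨ζ, Λ, |C 0|, fun τ => (h1 τ).2, h2, abs_nonneg _, fun α δ c u s d k hc e => ?_⟩
  obtain ⟨ψ, ρ, k1, k2, k3, k4⟩ := flw (hp := h.hp s) h.dir.ok (h.gap s) u (c := c s)
    (z := fun τ => ζ τ + |C 0| * δ) (fun τ => by have := (h1 τ).1; positivity) fun τ hτ y => by
      have e1 : Dz Z.bg z.gm α.1.1 c u.1 (z.gm.pt s τ y) = 0 := congrFun (congrArg Prod.fst e) _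
      rw [Dz, hB _ _ _ _ α.2.1 h.a1.1 u.2, rd_pt h.gm hc hτ] at e1
      rw [h.dir.app _ u.2, ← h.dir.ok.σ s τ y none hτ, h.dir.σ, mul_apply_eq_comp, u.2.2,
        show Z.bg.eD ⟨a₀, u.1⟩ (z.gm.pt s τ y) - c s τ • Z.bg.m.ρ none _ (u.1 (z.gm.pt s τ y)) =
          -B _ (vc (α.1.1 - a₀) (z.gm.pt s τ y)) (u.1 (z.gm.pt s τ y)) by
            rw [← sub_eq_zero, ← e1]; abel]
      refine (norm_sub_le _ _).trans ?_
      rw [norm_neg, add_mul, add_comm]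
      exact add_le_add (ContinuousLinearMap.le_of_opNorm_le _ (h3 τ ⟨s, y⟩) _)
        (ContinuousLinearMap.le_of_opNorm_le _ (ContinuousLinearMap.le_of_opNorm_le_of_le _
          ((hC.2 0 [] le_rfl _).trans (le_abs_self _)) (k.sup _)) _)
  exact ⟨ψ, ρ, k1, k2, k3, k4⟩

theorem ax : h.rp.Ax where
  ε0 := h.ε0
  γ0 := h.γ0
  sm0 := ⟨h.a1, fun x => by simp, fun j => ⟨h.rp.o.2.2 j, fun _ _ _ _ => by simp [lη_zero],
    fun _ _ _ _ _ _ _ _ => by simp [lη_zero], fun _ _ _ _ _ _ _ _ => by simp [lη_zero]⟩⟩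
  smm α δ δ' k hδ := by
    have := h.gm.con
    have d := (norm_nonneg _).trans (k.sup (Classical.arbitrary _))
    exact ⟨k.a1, fun x => (k.sup x).trans hδ,
      fun j => ⟨(k.η j).1, rb_mono (k.η j).2 ((abs_of_nonneg d).trans_le hδ)⟩⟩
  q0n u := q0_nn _
  q0a u v := q0_add h.gm u.2.1.continuous v.2.1.continuous
  q0s r u := (q0_eq fun x => norm_smul r (u.1 x)).trans (by rw [Real.norm_eq_abs, sq_abs])
  q0r ζ u := q0_eq fun x => h.ncs ζ (u.1 x)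
  q0E c u v k := q0_congr fun x hx => by
    show u.1 x + ((h.rp.E c v).1 x - v.1 x) = _
    rw [h.E_cor k v hx, sub_self, add_zero]
  col s u := (intervalIntegral.integral_congr fun τ k => h.n_eq (by
    rw [uIcc_of_le (by norm_num)] at k; linarith [k.1]) u).trans_le (col h.gm u.2.1.continuous)
  smn s u := (sm_n2 u.2.1 s).congr fun τ k => h.n_eq k u
  sep u k k' := Subtype.ext (h.ul.sep _ _ _ u.2.1.continuous ((h.fi_iff u).1 k) (h.Q_eq u ▸ k'))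
  slE c s u k τ hτ := by
    show slk _ 0 τ _ = _ • slk _ 0 τ _
    rw [slk_eq _ 0 hτ, slk_eq _ 0 hτ, ← map_smul ((z.gm.D s).F.toH 0 _)]
    exact congrArg _ (Subtype.ext (funext fun y => (congrFun (h.E_val k u) _).trans
      (by rw [rd_pt h.gm k hτ]; rfl)))
  EE c u k := by
    have k' : Rd (-c) := fun s => ⟨(k s).1.neg, fun τ hτ => neg_eq_zero.2 ((k s).2 τ hτ)⟩
    refine Subtype.ext (funext fun x => ?_)
    rw [h.E_val k]
    beta_reduce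
    rw [h.E_val k']
    simp only [smul_smul, ← exp_add, Gm.rd, Pi.neg_apply, Finset.sum_neg_distrib, add_neg_cancel,
      exp_zero, one_smul]
  slr ζ s u τ hτ := (sq_eq_sq₀ (norm_nonneg _) (by positivity)).1 (by
    rw [mul_pow, norm_slk _ hτ, norm_slk _ hτ, n2_eq, n2_eq, ← sl_mul]
    exact congrArg (sl _ _ · τ) (funext fun x => by rw [← mul_pow, ← h.ncs]; rfl))
  rr ζ ζ' u := Subtype.ext (funext fun x => cs_mul h.ok.m.Jsq _ _ _)
  rre r u := Subtype.ext (funext fun x => show cs _ _ _ = r • u.1 x by simp [cs])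
  rE ζ c u := by
    by_cases k : Rd c
    · exact Subtype.ext ((funext fun x => (congrArg (cs _ ζ) (congrFun (h.E_val k u) x)).trans
        (map_smul (csL _ ζ) _ _)).trans (h.E_val k (h.rp.rot ζ u)).symm)
    · dsimp only [rp]; rw [dif_neg k]; exact map_zero _
  prr ζ u := h.prr ζ _ u.2.1
  prE c u k := by
    have := h.est.choose_spec.1.bd _ (h.rp.E c u - u).2.1
    rw [q0_congr (f' := (0 : ℝ) • u.1) (fun x hx => by
      show (h.rp.E c u).1 x - u.1 x = _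
      simp [h.E_cor k u hx]), q0_eq (c := 0) (u := u.1) (by simp)] at this
    rw [← sub_eq_zero, ← map_sub]
    exact norm_eq_zero.1 (pow_eq_zero_iff two_ne_zero |>.1 (le_antisymm (by simpa using this)
      (sq_nonneg _)))
  prb := ⟨_, fun u => h.est.choose_spec.1.bd _ u.2.1⟩
  DE α c f u kc kf := Prod.ext (funext fun x => by
      show Dz _ _ _ _ (h.rp.E f u).1 x = exp (z.gm.rd f x) • Dz _ _ _ c u.1 x
      have d : ∀ i, Z.bg.F.D i (fun x => exp (z.gm.rd f x)) x =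
          exp (z.gm.rd f x) * z.gm.F.D i (z.gm.rd f) x := fun i =>
        (dv_comp ((sm_rd kf).mdifferentiableAt (by simp)) (hasDerivAt_exp _).hasFDerivAt).trans
          (mul_comm _ _)
      rw [h.E_val kf, Dz_mul (sm_exp kf) u.2.1]
      simp only [d, Fintype.sum_option, D_rd_none kf, D_rd_some kf, Pi.zero_apply, mul_zero,
        zero_smul, Finset.sum_const_zero]
      simp only [Dz, Gm.rd, Finset.sum_add_distrib, Gm.sg, id]
      module)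
    (funext fun j => by
      have := fun y => h.E_cor kf u fun s => (h.ct j y s).le
      show _ - _ = _ - _
      simp only [Bg.lη, this]; rfl)
  Dr α c ζ u k := Prod.ext (funext fun x => (Dz_cs h.ok u.2.1 ζ x).trans
      ((congrArg _ (congrFun (congrArg Prod.fst k) x)).trans (map_zero _))) (funext fun j => by
    have k1 := fun η t => ((h.rb j η t).choose_spec.2 _ α.2.1).2 ζ _ u.2.1
    refine (congrArg₂ (· - ·) (k1 _ (h.ok.ct j).η) (k1 _ (α.2.2 j))).trans ?_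
    rw [← mul_sub]
    exact mul_eq_zero_of_right _ (congrFun (congrArg Prod.snd k) j))
  F0 := ⟨continuous_zero, fun s => by simp [Gm.n2]⟩
  Q0 := by simp [Gm.Q, Gm.q0, Gm.n2]
  Qn f := add_nonneg (Q_nn _) (sq_nonneg _)
  Fs f f' k k' := by
    have := h.ul.le _ _ f.1 f'.1 (f.1 - f'.1) _ 1 k.1 k'.1 (k.1.sub k'.1)
      (fun x => (norm_sub_le _ _).trans_eq (one_mul _).symm) k.2 k'.2
    refine ⟨⟨k.1.sub k'.1, this.1⟩, ?_⟩
    show z.gm.Q _ (f.1 - f'.1) + ‖f.2 - f'.2‖ ^ 2 ≤ 2 * (_ + _) + 2 * (_ + _)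
    nlinarith [pow_le_pow_left₀ (norm_nonneg _) (norm_sub_le f.2 f'.2) 2, this.2,
      sq_nonneg (‖f.2‖ - ‖f'.2‖)]
  FE α c u f G _ kf G0 hG k := by
    generalize h.rp.D α c u = w at k
    have k1 := (sm_exp (g := z.gm) kf).continuous.smul k.1
    have := Q_mono (c := exp G) h.gm k1 k.1 (fun x => by
      rw [Pi.smul_apply', norm_smul, Real.norm_of_nonneg (exp_pos _).le]
      exact mul_le_mul_of_nonneg_right (exp_le_exp.2 ((le_abs_self _).trans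
        (abs_rd h.gm (fun s => (kf s).2) G0 hG x))) (norm_nonneg _)) k.2
    refine ⟨⟨k1, this.1⟩, (add_le_add this.2 (le_mul_of_one_le_left (sq_nonneg _)
      (one_le_exp (by linarith : 0 ≤ 2 * G)))).trans_eq ?_⟩
    rw [← exp_nat_mul, Nat.cast_ofNat, ← mul_add]; rfl
  pert := h.pert
  est := ⟨_, fun u k k' => h.Q_eq u ▸ h.est.choose_spec.2 _ u.2 ((h.fi_iff u).1 k) k'.2⟩
  ex := h.ker.ex.imp fun δ k => ⟨k.1, fun α m =>
    let ⟨u, k1, k2⟩ := k.2 _ _ m.a1 m.sup α.2.2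
    ⟨⟨u, k1.sc⟩, fun e => k2 (congrArg Subtype.val e), (h.fi_iff _).2 k1.fi, Prod.ext k1.eq k1.row⟩⟩
  nd s u k k' i := Subtype.ext (h.ker.nd s _ ⟨u.2, fun s' => by
    rcases eq_or_ne s' s with rfl | e
    · simpa using (h.int_iff _ u _).1 i
    · rw [update_of_ne e]; exact (h.fi_iff u).1 k s', congrArg Prod.fst k', congrArg Prod.snd k'⟩)
  fl := h.fl

variable {β : Bool → ℝ → ℝ}

theorem cm_eq (u : h.rp.S) : h.rp.cm β u = cm z.gm β u.1 := funext fun s => funext fun τ => by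
  rcases lt_or_ge (-1) τ with k | k
  · rw [Rp.cm, h.n_eq k]; rfl
  · simp only [Rp.cm, cm, smoothTransition.zero_of_nonpos (k.trans neg_one_lt_zero.le), zero_mul]

theorem rad_iff {η : ℝ} (α : h.rp.A) (u : h.rp.S) :
    h.rp.Rad β η α u ↔ Rs Z.bg z.gm β l η α.1.1 α.1.2 u.1 := by
  have k := fun s => (eventually_gt_atTop (-1)).mono fun τ k => h.n_eq (s := s) k u
  rw [Rp.Rad, h.cm_eq]
  exact ⟨fun m => ⟨u.2, congrArg Prod.fst m.1, congrArg Prod.snd m.1,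
      fun s => ((m.2 s).and (k s)).mono fun τ e => e.2 ▸ e.1⟩,
    fun m => ⟨Prod.ext m.eq m.row, fun s => ((m.lv s).and (k s)).mono fun τ e => e.2 ▸ e.1⟩⟩

theorem out (hβ : ∀ s, ContDiff ℝ ∞ (β s)) {η δ lo up T C : ℝ} (o : h.rp.Out β η δ lo up T C) :
    Out Z.bg z.gm a₀ β l ε η δ lo up (max T 0) C where
  ex a η' k := let ⟨u, m⟩ := o.ex ⟨(a, η'), k.a1.1, fun j => (k.η j).1⟩ k; ⟨u.1, (h.rad_iff _ u).1 m⟩
  bnd a η' u k m := by
    obtain ⟨k1, k2⟩ := o.bnd ⟨(a, η'), k.a1.1, fun j => (k.η j).1⟩ ⟨u, m.sc⟩ k ((h.rad_iff _ _).2 m)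
    exact ⟨k1, fun s => ⟨fun τ hτ => h.n_eq (neg_one_lt_zero.trans_le hτ) ⟨u, m.sc⟩ ▸ (k2 s).1 τ hτ,
      fun τ hτ => h.n_eq (neg_one_lt_zero.trans_le (max_le_iff.1 hτ).2) ⟨u, m.sc⟩ ▸
        (k2 s).2 τ (max_le_iff.1 hτ).1⟩⟩
  lip a η₁ a' η₁' u u' k k' m m' i := by
    have := o.lip ⟨(a, η₁), k.a1.1, fun j => (k.η j).1⟩ ⟨(a', η₁'), k'.a1.1, fun j => (k'.η j).1⟩
      ⟨u, m.sc⟩ ⟨u', m'.sc⟩ k k' ((h.rad_iff _ _).2 m) ((h.rad_iff _ _).2 m')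
    rw [h.cm_eq] at this
    obtain ⟨ζ, e1, e2⟩ := this ⟨cont_Dz h.ok k.a1.1 (rd_cm hβ m'.sc.1) m'.sc.1, i⟩
    rw [h.Q_eq] at e2
    exact ⟨ζ, e1, e2⟩

end Hy

/-- **RAD-AX** -/
theorem out (hA : AbsStmt) (hG : AlgStmt κ lam ν) (hD : DirStmt κ lam ν) (hR : RbStmt κ lam ν)
    (hU : UlStmt κ lam) : OutStmt κ lam ν := by
  intro X nc k e Z z ϖ a₀ l ok ref ⟨hl, ε₀, e0, hk⟩ β hβ
  obtain ⟨ε₁, e1, H⟩ := hA β l hβ
  obtain ⟨L, hL⟩ := hD X nc e Z z a₀ ok.ok ref.a1 ref.dec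
  obtain ⟨gm, alg⟩ := hG X nc e Z z ok.ok
  choose γ g0 hγ using fun s => (hl s).2
  have g1 := lt_min (g0 false) (g0 true)
  refine ⟨min (min ε₀ ε₁) (min (γ false) (γ true) / 8), by positivity, fun ε hε => ?_⟩
  have k1 := hk ε ⟨hε.1, hε.2.trans ((min_le_left _ _).trans (min_le_left _ _))⟩
  obtain ⟨pr, C, p1, p2, p3⟩ := k1.est
  have h : Hy z a₀ l ε (min (γ false) (γ true)) L pr := ⟨ok.ok.bg, alg, hL, hU _ _ _ gm, ok.ct,
    ref.a1, hε.1, by linarith [hε.2.trans (min_le_right _ _)], fun s u μ δ d0 d1 d2 => ?_,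
    fun j η t => ?_, k1, p2, C, p1, p3⟩
  · obtain ⟨η₀, h0, H⟩ := H _ h.ax rfl (hε.2.trans ((min_le_left _ _).trans (min_le_right _ _)))
    refine ⟨η₀, h0, fun η hη => ?_⟩
    obtain ⟨δ, d0, lo, l0, up, T, C, o⟩ := H η hη
    exact ⟨δ, d0, lo, l0, up, _, C, h.out (fun s => (hβ s).sm) o⟩
  · rw [hL.Eapp]
    refine hγ s u.1 ⟨fun i => by cases i <;> exact contMDiff_const, sm_fst u.2.1,
      fun i x => by cases i <;> simp [fz, Nd18.ca], fun x => ?_⟩ μ δ d0 d1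
      (d2.trans (sub_le_sub_right (by cases s <;> simp) _))
    have := u.2.2.2 x.1
    rwa [(hL.Ep s x.1).1] at this
  · obtain ⟨R, -, h1⟩ := t.cpt.exists_pos_le_norm
    obtain ⟨m, h2⟩ := t.sm.continuous.bounded_above_of_compact_support t.cpt
    obtain ⟨C, h3⟩ := hR X nc k e Z z ϖ ok j R
    exact ⟨_, h3 η m t (fun y hy => h1 y hy.le) h2⟩

end Crest.Agent.X212.Rax71
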